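import Vale.Agent.P168.CascForm.Swap

/-!
P168: the discrete cascade with prescribed exponents, built replica by replica, and its uniqueness.
-/

namespace Vale.Agent.P168.CascForm

open Vale.Agent.P157.Low
open Vale.Agent.P166F (sum_incr)

variable {r n : ℕ} {m : Fin (r + 1) → ℝ}

lemma cs_eq_sum (A : LMat r n) (q : Fin (r + 1)) (a : Fin n) :
    (cs A q a : ℝ) = ∑ p, ge q (A a p) := by
  unfold cs ge
  rw [Finset.card_filter]
  push_cast
  simp only [Fin.val_fin_le]

/-- The probabilities of the arrays, one replica at a time. -/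
noncomputable def law (m : Fin (r + 1) → ℝ) : ∀ n, LMat r n → ℝ
  | 0, _ => 1
  | n + 1, A' => ∑ A, law m n A * colAv m A fun c => if ext A c = A' then 1 else 0

/-- The average of a function of an array. -/
noncomputable def avg (m : Fin (r + 1) → ℝ) (n : ℕ) (f : LMat r n → ℝ) : ℝ := ∑ A, law m n A * f A

lemma avg_succ (f : LMat r (n + 1) → ℝ) :
    avg m (n + 1) f = avg m n fun A => colAv m A fun c => f (ext A c) := by
  simp only [avg, law, Finset.sum_mul]
  rw [Finset.sum_comm]
  refine Finset.sum_congr rfl fun A _ => ?_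
  calc ∑ A', law m n A * colAv m A (fun c => if ext A c = A' then 1 else 0) * f A'
      = law m n A * ∑ A', colAv m A fun c => f A' * if ext A c = A' then 1 else 0 := by
        rw [Finset.mul_sum]
        exact Finset.sum_congr rfl fun A' _ => by rw [colAv_smul]; ring
    _ = _ := by
        rw [← colAv_sum]
        simp

lemma good_zero (A : LMat r 0) : Good A :=
  ⟨fun a => a.elim0, fun a => a.elim0, fun a => a.elim0⟩

lemma law_props (hm : Expo m) : ∀ n (A : LMat r n), 0 ≤ law m n A ∧ (law m n A ≠ 0 → Good A)
  | 0, A => ⟨zero_le_one, fun _ => good_zero A⟩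
  | n + 1, A' => by
    have h0 : ∀ A, 0 ≤ law m n A * colAv m A (fun c => if ext A c = A' then 1 else 0) := fun A => by
      rcases eq_or_ne (law m n A) 0 with h | h
      · simp [h]
      · exact mul_nonneg (law_props hm n A).1
          (colAv_nonneg hm ((law_props hm n A).2 h) fun c _ => by split_ifs <;> norm_num)
    refine ⟨Finset.sum_nonneg fun A _ => h0 A, fun hne => ?_⟩
    by_contra hbad
    refine hne (Finset.sum_eq_zero fun A _ => ?_)
    rcases eq_or_ne (law m n A) 0 with h | h
    · simp [h]
    · have hA := (law_props hm n A).2 h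
      rw [colAv_congr hA (G := fun _ => 0)
        (fun c hc => if_neg fun (e : ext A c = A') => hbad (e ▸ good_ext hA hc)), colAv_const hm hA,
        mul_zero]

lemma avg_congr (hm : Expo m) {f g : LMat r n → ℝ} (h : ∀ A, Good A → f A = g A) :
    avg m n f = avg m n g :=
  Finset.sum_congr rfl fun A _ => by
    rcases eq_or_ne (law m n A) 0 with h0 | h0
    · simp [h0]
    · rw [h A ((law_props hm n A).2 h0)]

lemma avg_castSucc (hm : Expo m) (f : LMat r n → ℝ) :
    avg m (n + 1) (fun A' => f (sub A' Fin.castSucc)) = avg m n f := by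
  rw [avg_succ]
  exact avg_congr hm fun A hA => by simp only [sub_ext]; exact colAv_const hm hA _

lemma avg_one (hm : Expo m) : ∀ n, avg m n (fun _ : LMat r n => (1 : ℝ)) = 1
  | 0 => by
    rw [avg, Fintype.sum_unique]
    simp [law]
  | n + 1 => (avg_castSucc hm fun _ => 1).trans (avg_one hm n)

lemma sub_perm_ext (A : LMat r n) (c : Fin n → Fin (r + 1)) (τ : Equiv.Perm (Fin (n + 1)))
    (τ' : Equiv.Perm (Fin n)) (hl : τ (Fin.last n) = Fin.last n)
    (hc : ∀ a, τ a.castSucc = (τ' a).castSucc) :
    sub (ext A c) τ = ext (sub A τ') (c ∘ τ') := by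
  funext a b
  cases a using Fin.lastCases <;> cases b using Fin.lastCases <;> simp [sub, hl, hc]

/-- Relabelling the replicas does not change the averages. -/
theorem avg_perm (hm : Expo m) : ∀ n (σ : Equiv.Perm (Fin n)) (f : LMat r n → ℝ),
    avg m n (fun A => f (sub A σ)) = avg m n f := by
  intro n
  induction n with
  | zero =>
    intro σ f
    have h : ∀ A : LMat r 0, sub A σ = A := fun A => funext fun a => a.elim0
    simp only [h]
  | succ n ih =>
    have fixLast : ∀ (τ : Equiv.Perm (Fin (n + 1))), τ (Fin.last n) = Fin.last n →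
        ∀ f : LMat r (n + 1) → ℝ, avg m (n + 1) (fun A => f (sub A τ)) = avg m (n + 1) f := by
      intro τ hl f
      have hne : ∀ a : Fin n, τ a.castSucc ≠ Fin.last n := fun a h =>
        (Fin.castSucc_lt_last a).ne (τ.injective (h.trans hl.symm))
      set τ' : Equiv.Perm (Fin n) := Equiv.ofBijective (fun a => (τ a.castSucc).castPred (hne a))
        (Finite.injective_iff_bijective.1 fun a b h =>
          Fin.castSucc_injective n (τ.injective (Fin.castPred_inj.1 h))) with hτ'
      have hc : ∀ a, τ a.castSucc = (τ' a).castSucc := fun a => by simp [hτ']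
      rw [avg_succ, avg_succ]
      simp only [sub_perm_ext _ _ τ τ' hl hc]
      rw [← ih τ' (fun A => colAv m A fun c => f (ext A c))]
      exact avg_congr hm fun A _ => (colAv_perm m A τ' fun c => f (ext (sub A τ') c)).symm
    intro σ f
    by_cases hσ : σ (Fin.last n) = Fin.last n
    · exact fixLast σ hσ f
    obtain ⟨j, rfl⟩ : ∃ j, n = j + 1 := by
      refine ⟨n - 1, ?_⟩
      rcases Nat.eq_zero_or_pos n with rfl | h
      · exact absurd (Fin.ext (by omega)) hσ
      · omega
    set s := Equiv.swap (Fin.last j).castSucc (Fin.last (j + 1))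
    set τ₁ : Equiv.Perm (Fin (j + 2)) := Equiv.swap (Fin.last j).castSucc (σ (Fin.last (j + 1)))
    have h₁ : τ₁ (Fin.last (j + 1)) = Fin.last (j + 1) :=
      Equiv.swap_apply_of_ne_of_ne (Fin.castSucc_lt_last _).ne' (Ne.symm hσ)
    set τ₂ : Equiv.Perm (Fin (j + 2)) := σ.trans (τ₁.trans s)
    have h₂ : τ₂ (Fin.last (j + 1)) = Fin.last (j + 1) := by
      simp [τ₂, τ₁, s, Equiv.swap_apply_left]
    have e : ∀ A : LMat r (j + 2), sub A σ = sub (sub (sub A τ₁) s) τ₂ := fun A => by
      funext a b
      simp [sub, τ₂, τ₁, s]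
    have hswap : ∀ g : LMat r (j + 2) → ℝ, avg m (j + 2) (fun A => g (sub A s)) = avg m (j + 2) g := by
      intro g
      rw [avg_succ, avg_succ, avg_succ, avg_succ]
      exact avg_congr hm fun A hA => swap_two hA g
    simp only [e]
    rw [fixLast τ₁ h₁ fun B => f (sub (sub B s) τ₂), hswap fun B => f (sub B τ₂), fixLast τ₂ h₂ f]

/-- Restriction to some of the replicas. -/
theorem avg_marg (hm : Expo m) : ∀ {n k : ℕ} (e : Fin k → Fin n), Function.Injective e →
    ∀ f : LMat r k → ℝ, avg m n (fun A => f (sub A e)) = avg m k f := by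
  intro n
  induction n with
  | zero =>
    intro k e he f
    obtain rfl : k = 0 := Nat.le_zero.1 (by simpa using Fintype.card_le_of_injective e he)
    have h : ∀ A : LMat r 0, sub A e = A := fun A => funext fun a => a.elim0
    simp only [h]
  | succ n ih =>
    intro k e he f
    by_cases hs : Function.Surjective e
    · obtain rfl : k = n + 1 := by
        simpa using Fintype.card_congr (Equiv.ofBijective e ⟨he, hs⟩)
      exact avg_perm hm _ (Equiv.ofBijective e ⟨he, hs⟩) f
    · obtain ⟨p, hp⟩ : ∃ p, ∀ a, e a ≠ p := by simpa [Function.Surjective] using hs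
      set σ := Equiv.swap p (Fin.last n) with hσ
      have hne : ∀ a, σ (e a) ≠ Fin.last n := fun a h => hp a (σ.injective (h.trans (by simp [hσ])))
      set e' : Fin k → Fin n := fun a => (σ (e a)).castPred (hne a)
      have he' : Function.Injective e' := fun a b h => he (σ.injective (Fin.castPred_inj.1 h))
      have h1 : ∀ A : LMat r (n + 1), sub A e = sub (sub (sub A σ) Fin.castSucc) e' := fun A => by
        funext a b
        simp [sub, e', hσ]
      simp only [h1]
      rw [avg_perm hm _ σ fun B => f (sub (sub B Fin.castSucc) e'),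
        avg_castSucc hm fun B => f (sub B e'), ih e' he' f]

lemma avg_pair (hm : Expo m) (ψ : Fin (r + 1) → ℝ) :
    avg m 2 (fun A => ψ (A 0 1)) = ∑ k, incr ψ k * (1 - m k) := by
  rw [avg_succ]
  calc avg m 1 (fun A => colAv m A fun c => ψ (ext A c 0 1))
      = avg m 1 fun _ => ∑ k, incr ψ k * (1 - m k) := avg_congr hm fun A hA => by
        have e : ∀ c : Fin 1 → Fin (r + 1), ext A c 0 1 = c 0 := fun c => ext_cl A c 0
        simp only [e, fun c : Fin 1 → Fin (r + 1) => eq_sum_ge ψ (c 0), colAv_sum, colAv_smul,
          colAv_ge one_ne_zero hA]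
        refine Finset.sum_congr rfl fun k _ => ?_
        have : cs A k (0 : Fin 1) = 1 :=
          le_antisymm ((Finset.card_filter_le _ _).trans (by simp)) (cs_pos hA k.is_le 0)
        simp [this]
    _ = _ := by
        have := avg_one (m := m) hm 1
        simp only [avg, mul_one] at this ⊢
        rw [← Finset.sum_mul, this, one_mul]

/-- The discrete cascade with exponents `m`. -/
noncomputable def casc (hm : Expo m) : Casc r where
  P := law m
  nonneg n A := (law_props hm n A).1
  total n := by simpa [avg] using avg_one hm n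
  marg e he Φ := avg_marg hm e he Φ
  symm n A h := ((law_props hm n A).2 h).symm
  diag n A h := ((law_props hm n A).2 h).diag
  ultra n A h := ((law_props hm n A).2 h).ultra
  gg n l Φ ψ := by
    show (n : ℝ) * avg m (n + 1) (fun A => Φ (sub A Fin.castSucc) * ψ (A l.castSucc (Fin.last n))) =
      avg m n Φ * avg m 2 (fun A => ψ (A 0 1)) +
        ∑ l' ∈ Finset.univ.erase l, avg m n fun A => Φ A * ψ (A l l')
    rw [avg_succ, avg_pair hm]
    simp only [avg, sub_ext, ext_cl]
    rw [Finset.sum_comm (s := Finset.univ.erase l), Finset.sum_mul, ← Finset.sum_add_distrib,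
      Finset.mul_sum]
    refine Finset.sum_congr rfl fun A _ => ?_
    rcases eq_or_ne (law m n A) 0 with h0 | h0
    · simp [h0]
    have hA := (law_props hm n A).2 h0
    have hn : n ≠ 0 := fun h => by subst h; exact l.elim0
    have hn' : (n : ℝ) ≠ 0 := Nat.cast_ne_zero.2 hn
    have hcs : ∑ k, incr ψ k * (cs A k l : ℝ) = ∑ l', ψ (A l l') := by
      simp only [cs_eq_sum, Finset.mul_sum]
      rw [Finset.sum_comm]
      exact Finset.sum_congr rfl fun l' _ => (eq_sum_ge ψ (A l l')).symm
    have hone : ∑ k, incr ψ k = ψ (A l l) := by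
      simpa [ge, hA.diag, Fin.le_last] using (eq_sum_ge ψ (A l l)).symm
    have hav : colAv m A (fun c => ψ (c l)) = ∑ k, incr ψ k * (((cs A k l : ℝ) - m k) / n) := by
      simp only [fun c : Fin n → Fin (r + 1) => eq_sum_ge ψ (c l), colAv_sum, colAv_smul, colAv_ge hn hA]
    have key : (n : ℝ) * colAv m A (fun c => ψ (c l)) =
        ∑ k, incr ψ k * (1 - m k) + ∑ l' ∈ Finset.univ.erase l, ψ (A l l') := by
      have hsplit := Finset.add_sum_erase Finset.univ (fun l' => ψ (A l l')) (Finset.mem_univ l)
      rw [hav, Finset.mul_sum]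
      simp only [mul_div_assoc', mul_sub, mul_one, Finset.sum_sub_distrib]
      field_simp
      simp only [mul_sub, Finset.sum_sub_distrib]
      rw [hcs, hone]
      linarith
    rw [colAv_smul, ← Finset.mul_sum, ← Finset.mul_sum]
    linear_combination law m n A * Φ A * key

lemma casc_cdf (hm : Expo m) : (casc hm).cdf = m := by
  funext j
  have h : avg m 2 (fun A => if A 0 1 < j then (1 : ℝ) else 0) = m j := by
    have e : ∀ A : LMat r 2, (if A 0 1 < j then (1 : ℝ) else 0) = 1 - ge j (A 0 1) := fun A => by
      simp only [ge]; split_ifs <;> first | (exfalso; omega) | norm_num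
    have hp := avg_pair hm (ge j)
    have hk : ∀ k, incr (ge j) k = if k = j then 1 else 0 := fun k => by
      simp only [incr, ge]
      by_cases hk0 : (k : ℕ) = 0
      · simp only [hk0, dite_true, sub_zero]
        refine if_congr ?_ rfl rfl
        rw [Fin.le_def, Fin.ext_iff]
        omega
      · simp only [hk0, dite_false, Fin.le_def, Fin.ext_iff]
        split_ifs <;> first | (exfalso; omega) | norm_num
    simp only [hk, ite_mul, one_mul, zero_mul, Finset.sum_ite_eq', Finset.mem_univ, if_true] at hp
    simp only [e]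
    have h1 := avg_one (m := m) hm 2
    simp only [avg, mul_sub, mul_one, Finset.sum_sub_distrib] at hp h1 ⊢
    linarith
  exact h

/-- In every discrete cascade the new replica is averaged with the weights of its exponents. -/
theorem casc_step (C : Casc r) (f : LMat r (n + 1) → ℝ) :
    ∑ A', C.P (n + 1) A' * f A' =
      ∑ A, C.P n A * colAv C.cdf A (fun c => f (ext A c)) := by
  rcases Nat.eq_zero_or_pos n with hn | hn
  · subst hn
    have h1 : ∀ A' : LMat r 1, C.P 1 A' ≠ 0 → A' = fun _ _ => Fin.last r := fun A' h => by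
      funext a b
      rw [show b = a from Fin.ext (by omega)]
      exact C.diag 1 A' h a
    have hext : ∀ A : LMat r 0, ext A (fun _ => Fin.last r) = fun _ _ => Fin.last r := fun A => by
      funext a b
      rw [show a = Fin.last 0 from Fin.ext (by omega), show b = Fin.last 0 from Fin.ext (by omega),
        ext_ll]
    calc ∑ A', C.P 1 A' * f A' = ∑ A', C.P 1 A' * f (fun _ _ => Fin.last r) :=
          Finset.sum_congr rfl fun A' _ => by
            rcases eq_or_ne (C.P 1 A') 0 with h | h
            · simp [h]
            · rw [← h1 A' h]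
      _ = _ := by
        simp only [colAv, if_true, hext, ← Finset.sum_mul, C.total]
  set F : LMat r n → (Fin n → Fin (r + 1)) → ℝ := fun A c => f (ext A c)
  have e1 : ∀ A', C.P (n + 1) A' * f A' = C.P (n + 1) A' *
      ∑ p : Fin n × Fin (r + 1), coef (sub A' Fin.castSucc) (F (sub A' Fin.castSucc)) p *
        ge p.2 (A' p.1.castSucc (Fin.last n)) := fun A' => by
    rcases eq_or_ne (C.P (n + 1) A') 0 with h | h
    · simp [h]
    have hA := C.good h
    have := eq_sum_coef hn.ne' (good_castSucc hA) (F (sub A' Fin.castSucc)) (isCol_last hA)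
    simp only [F, ext_eta hA] at this ⊢
    conv_lhs => rw [this]
    exact congrArg _ (Finset.sum_congr rfl fun p _ => by rw [hA.symm (Fin.last n)])
  have e2 : ∀ p : Fin n × Fin (r + 1), ∑ A', C.P (n + 1) A' *
      (coef (sub A' Fin.castSucc) (F (sub A' Fin.castSucc)) p * ge p.2 (A' p.1.castSucc (Fin.last n))) =
      ∑ A, C.P n A * (coef A (F A) p * (((cs A p.2 p.1 : ℝ) - C.cdf p.2) / n)) := by
    intro p
    have hg := C.gg n p.1 (fun A => coef A (F A) p) (ge p.2)
    have hpair : ∑ A, C.P 2 A * ge p.2 (A 0 1) = 1 - C.cdf p.2 := by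
      rw [eq_sub_iff_add_eq, Casc.cdf, ← Finset.sum_add_distrib]
      refine (Finset.sum_congr rfl fun A _ => ?_).trans (C.total 2)
      simp only [ge]
      split_ifs <;> first | (exfalso; omega) | ring
    rw [hpair, Finset.sum_mul, Finset.sum_comm, ← Finset.sum_add_distrib] at hg
    have hn' : (n : ℝ) ≠ 0 := Nat.cast_ne_zero.2 hn.ne'
    rw [← mul_right_inj' hn', hg, Finset.mul_sum]
    refine Finset.sum_congr rfl fun A _ => ?_
    rcases eq_or_ne (C.P n A) 0 with h | h
    · simp [h]
    have hA := C.good h
    have hcs : (cs A p.2 p.1 : ℝ) = 1 + ∑ l' ∈ Finset.univ.erase p.1, ge p.2 (A p.1 l') := by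
      have := Finset.add_sum_erase Finset.univ (fun l' => ge p.2 (A p.1 l')) (Finset.mem_univ p.1)
      rw [cs_eq_sum]
      simp only [ge, hA.diag, Fin.le_last, if_true] at this ⊢
      rw [this]
    rw [hcs, ← Finset.mul_sum, ← Finset.mul_sum]
    field_simp
    ring
  simp only [e1, Finset.mul_sum]
  rw [Finset.sum_comm, Finset.sum_congr rfl fun p _ => e2 p, Finset.sum_comm]
  refine Finset.sum_congr rfl fun A _ => ?_
  rcases eq_or_ne (C.P n A) 0 with h | h
  · simp [h]
  have hA := C.good h
  rw [← Finset.mul_sum, colAv_congr hA fun c hc => eq_sum_coef hn.ne' hA (F A) hc, colAv_sum]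
  simp only [colAv_smul, colAv_ge hn.ne' hA]

end Vale.Agent.P168.CascForm
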