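import Vale.Agent.P157.Low.CascadeClass
import Vale.Agent.P166F.Defs
import Vale.Agent.P166F.Ent.Line

/-!
P168: one more replica in an ultrametric array of levels. The new column is averaged with the
Ghirlanda–Guerra weights of the exponents `m`; balls get the mass of their size minus the exponent.
-/

namespace Vale.Agent.P168.CascForm

open Vale.Agent.P157.Low
open Vale.Agent.P166F (sum_incr)

variable {r n : ℕ}

/-- The size of the ball of level `q` around `a`. -/
def cs (A : LMat r n) (q : ℕ) (a : Fin n) : ℕ :=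
  (Finset.univ.filter fun p => q ≤ (A a p : ℕ)).card

/-- Exponent over size of the ball, one beyond the last level. -/
noncomputable def gRatio (m : Fin (r + 1) → ℝ) (A : LMat r n) (a : Fin n) (q : ℕ) : ℝ :=
  if h : q < r + 1 then m ⟨q, h⟩ / cs A q a else 1

/-- The column of a replica leaving `a` after level `j`. -/
def col (A : LMat r n) (j : Fin (r + 1)) (a : Fin n) : Fin n → Fin (r + 1) := fun b => min j (A a b)

/-- The average of a function of the new column. -/
noncomputable def colAv (m : Fin (r + 1) → ℝ) (A : LMat r n) (F : (Fin n → Fin (r + 1)) → ℝ) : ℝ :=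
  if n = 0 then F fun _ => Fin.last r else
    (∑ a, ∑ j : Fin (r + 1), (gRatio m A a ((j : ℕ) + 1) - gRatio m A a j) * F (col A j a)) / n

/-- A column compatible with an array. -/
structure IsCol (A : LMat r n) (c : Fin n → Fin (r + 1)) : Prop where
  down : ∀ a b, min (c a) (A a b) ≤ c b
  meet : ∀ a b, min (c a) (c b) ≤ A a b

/-- Exponents of an array: from zero, increasing, at most one. -/
structure Expo (m : Fin (r + 1) → ℝ) : Prop where
  zero : m 0 = 0
  mono : Monotone m
  le_one : ∀ j, m j ≤ 1

/-- An indicator of reaching a level. -/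
noncomputable def ge (i x : Fin (r + 1)) : ℝ := if i ≤ x then 1 else 0

variable {m : Fin (r + 1) → ℝ} {A : LMat r n}

lemma cs_pos (hA : Good A) {q : ℕ} (hq : q ≤ r) (a : Fin n) : 0 < cs A q a :=
  Finset.card_pos.2 ⟨a, by simp [hA.diag, hq]⟩

lemma cs_anti (A : LMat r n) (a : Fin n) {q q' : ℕ} (h : q ≤ q') : cs A q' a ≤ cs A q a :=
  Finset.card_le_card fun p hp => by
    simp only [Finset.mem_filter, Finset.mem_univ, true_and] at hp ⊢; omega

lemma cs_congr (hA : Good A) {q : Fin (r + 1)} {a b : Fin n} (h : q ≤ A a b) :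
    cs A q a = cs A q b := by
  unfold cs
  congr 1
  ext p
  simp only [Finset.mem_filter, Finset.mem_univ, true_and]
  exact ⟨fun hp => Fin.le_def.1 (hA.trans (by rwa [hA.symm]) (Fin.le_def.2 hp)),
    fun hp => Fin.le_def.1 (hA.trans h (Fin.le_def.2 hp))⟩

lemma gRatio_mono (hm : Expo m) (hA : Good A) (a : Fin n) {q : ℕ} (hq : q ≤ r) :
    gRatio m A a q ≤ gRatio m A a (q + 1) := by
  have h0 : 0 ≤ m ⟨q, by omega⟩ := hm.zero ▸ hm.mono (Fin.zero_le _)
  have hc := cs_pos hA hq a
  rw [gRatio, dif_pos (by omega : q < r + 1), gRatio]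
  split_ifs with h
  · refine div_le_div₀ (le_trans h0 (hm.mono (Fin.le_def.2 (by simp))))
      (hm.mono (Fin.le_def.2 (by simp))) (Nat.cast_pos.2 (cs_pos hA (by omega) a))
      (Nat.cast_le.2 (cs_anti A a (Nat.le_succ q)))
  · rw [div_le_one (Nat.cast_pos.2 hc)]
    exact (hm.le_one _).trans (Nat.one_le_cast.2 hc)

lemma isCol_col (hA : Good A) (j : Fin (r + 1)) (a : Fin n) : IsCol A (col A j a) := by
  refine ⟨fun b c => ?_, fun b c => ?_⟩
  · simp only [col]
    refine le_min ((min_le_left _ _).trans (min_le_left _ _)) ?_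
    exact (min_le_min (min_le_right _ _) le_rfl).trans (hA.ultra a b c)
  · simp only [col]
    refine (min_le_min (min_le_right _ _) (min_le_right _ _)).trans ?_
    rw [hA.symm a b]
    exact hA.ultra b a c

lemma colAv_congr (hA : Good A) {F G : (Fin n → Fin (r + 1)) → ℝ}
    (h : ∀ c, IsCol A c → F c = G c) : colAv m A F = colAv m A G := by
  unfold colAv
  split_ifs with hn
  · subst hn; exact h _ ⟨fun a => a.elim0, fun a => a.elim0⟩
  · simp only [fun j a => h _ (isCol_col hA j a)]

lemma colAv_nonneg (hm : Expo m) (hA : Good A) {F : (Fin n → Fin (r + 1)) → ℝ}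
    (h : ∀ c, IsCol A c → 0 ≤ F c) : 0 ≤ colAv m A F := by
  unfold colAv
  split_ifs with hn
  · subst hn; exact h _ ⟨fun a => a.elim0, fun a => a.elim0⟩
  · exact div_nonneg (Finset.sum_nonneg fun a _ => Finset.sum_nonneg fun j _ => mul_nonneg
      (sub_nonneg.2 (gRatio_mono hm hA a (Fin.is_le j))) (h _ (isCol_col hA j a))) (Nat.cast_nonneg _)

lemma colAv_sum {ι : Type} (s : Finset ι) (F : ι → (Fin n → Fin (r + 1)) → ℝ) :
    colAv m A (fun c => ∑ i ∈ s, F i c) = ∑ i ∈ s, colAv m A (F i) := by
  unfold colAv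
  split_ifs with hn
  · rfl
  · rw [← Finset.sum_div]
    congr 1
    simp only [Finset.mul_sum]
    rw [Finset.sum_comm (s := s)]
    exact Finset.sum_congr rfl fun a _ => Finset.sum_comm

lemma colAv_smul (x : ℝ) (F : (Fin n → Fin (r + 1)) → ℝ) :
    colAv m A (fun c => x * F c) = x * colAv m A F := by
  unfold colAv
  split_ifs with hn
  · rfl
  · rw [← mul_div_assoc, Finset.mul_sum]
    congr 1
    refine Finset.sum_congr rfl fun a _ => ?_
    rw [Finset.mul_sum]
    exact Finset.sum_congr rfl fun j _ => by ring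

lemma colAv_add (F G : (Fin n → Fin (r + 1)) → ℝ) :
    colAv m A (fun c => F c + G c) = colAv m A F + colAv m A G := by
  have h := colAv_sum (m := m) (A := A) Finset.univ fun i : Fin 2 => ![F, G] i
  simpa [Fin.sum_univ_two] using h

/-- Telescoping from a level on. -/
lemma sum_tele (G : ℕ → ℝ) : ∀ {N i : ℕ}, i ≤ N →
    (∑ j : Fin N, if i ≤ (j : ℕ) then G ((j : ℕ) + 1) - G j else 0) = G N - G i
  | 0, i, h => by
    obtain rfl : i = 0 := by omega
    simp
  | N + 1, i, h => by
    rw [Fin.sum_univ_castSucc]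
    rcases eq_or_lt_of_le h with rfl | h'
    · rw [Finset.sum_eq_zero fun j _ => if_neg (by simp)]
      simp
    · simp only [Fin.val_castSucc, Fin.val_last]
      rw [sum_tele G (Nat.lt_succ_iff.1 h'), if_pos (Nat.lt_succ_iff.1 h')]
      ring

/-- The mass of a ball. -/
lemma colAv_ge (hn : n ≠ 0) (hA : Good A) (i : Fin (r + 1)) (a : Fin n) :
    colAv m A (fun c => ge i (c a)) = ((cs A i a : ℝ) - m i) / n := by
  rw [colAv, if_neg hn]
  congr 1
  have e : ∀ b, (∑ j : Fin (r + 1),
      (gRatio m A b ((j : ℕ) + 1) - gRatio m A b j) * ge i (col A j b a)) =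
      if i ≤ A a b then 1 - m i / cs A i a else 0 := fun b => by
    by_cases hb : i ≤ A a b
    · rw [if_pos hb]
      have e1 : ∀ j : Fin (r + 1), (gRatio m A b ((j : ℕ) + 1) - gRatio m A b j) * ge i (col A j b a) =
          if (i : ℕ) ≤ (j : ℕ) then gRatio m A b ((j : ℕ) + 1) - gRatio m A b j else 0 := fun j => by
        have : i ≤ col A j b a ↔ (i : ℕ) ≤ (j : ℕ) := by
          simp only [col, le_min_iff, hA.symm b a, hb, and_true, Fin.le_def]
        simp only [ge, this, mul_ite, mul_one, mul_zero]
      rw [Finset.sum_congr rfl fun j _ => e1 j,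
        sum_tele (fun q => gRatio m A b q) (Nat.le_of_lt i.isLt)]
      simp only [gRatio, lt_irrefl, dite_false, i.isLt, dite_true, Fin.eta]
      rw [cs_congr hA hb]
    · rw [if_neg hb]
      refine Finset.sum_eq_zero fun j _ => ?_
      have : ¬ i ≤ col A j b a := fun h => hb (by
        rw [hA.symm]; exact h.trans (min_le_right _ _))
      simp [ge, this]
  rw [Finset.sum_congr rfl fun b _ => e b, ← Finset.sum_filter, Finset.sum_const, nsmul_eq_mul]
  have hc : (0 : ℝ) < cs A i a := Nat.cast_pos.2 (cs_pos hA i.is_le a)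
  rw [show (Finset.univ.filter fun b => i ≤ A a b).card = cs A i a from rfl, mul_sub, mul_one,
    mul_div_cancel₀ _ hc.ne']

lemma colAv_one (hm : Expo m) (hA : Good A) : colAv m A (fun _ => 1) = 1 := by
  rcases Nat.eq_zero_or_pos n with hn | hn
  · simp [colAv, hn]
  · have h := colAv_ge (m := m) hn.ne' hA 0 ⟨0, hn⟩
    simp only [ge, Fin.zero_le, if_true, hm.zero, sub_zero] at h
    rw [h, show cs A ((0 : Fin (r + 1)) : ℕ) ⟨0, hn⟩ = n by simp [cs]]
    exact div_self (Nat.cast_ne_zero.2 hn.ne')

lemma colAv_const (hm : Expo m) (hA : Good A) (x : ℝ) : colAv m A (fun _ => x) = x := by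
  have h := colAv_smul (m := m) (A := A) x fun _ => 1
  simpa [colAv_one hm hA] using h

lemma eq_sum_ge (ψ : Fin (r + 1) → ℝ) (x : Fin (r + 1)) : ψ x = ∑ k, incr ψ k * ge k x := by
  conv_lhs => rw [← sum_incr ψ x]
  exact Finset.sum_congr rfl fun k _ => by simp only [ge, mul_ite, mul_one, mul_zero]

/-- The coefficient of a ball in a function of the column. -/
noncomputable def coef (A : LMat r n) (g : (Fin n → Fin (r + 1)) → ℝ) (p : Fin n × Fin (r + 1)) : ℝ :=
  incr (fun j => g (col A j p.1)) p.2 / cs A p.2 p.1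

/-- A function of a compatible column is a combination of the indicators of the balls. -/
lemma eq_sum_coef (hn : n ≠ 0) (hA : Good A) (g : (Fin n → Fin (r + 1)) → ℝ)
    {c : Fin n → Fin (r + 1)} (hc : IsCol A c) : g c = ∑ p, coef A g p * ge p.2 (c p.1) := by
  have : Nonempty (Fin n) := ⟨⟨0, Nat.pos_of_ne_zero hn⟩⟩
  obtain ⟨a, -, ha⟩ := Finset.exists_max_image Finset.univ c Finset.univ_nonempty
  have hcol : c = col A (c a) a := funext fun b => le_antisymm
    (le_min (ha b (Finset.mem_univ b))
      (le_trans (le_min (ha b (Finset.mem_univ b)) le_rfl) (hc.meet a b)))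
    (hc.down a b)
  rw [Fintype.sum_prod_type, Finset.sum_comm]
  have e : ∀ q, ∑ b, coef A g (b, q) * ge q (c b) =
      incr (fun j => g (col A j a)) q * ge q (c a) := by
    intro q
    by_cases hq : q ≤ c a
    · have h1 : ∀ b, coef A g (b, q) * ge q (c b) =
          if q ≤ A a b then incr (fun j => g (col A j a)) q / cs A q a else 0 := fun b => by
        by_cases hb : q ≤ A a b
        · have hcb : q ≤ c b := by rw [congr_fun hcol b]; exact le_min hq hb
          rw [if_pos hb, ge, if_pos hcb, mul_one, coef, cs_congr hA hb]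
          congr 1
          have hj : ∀ j, j ≤ q → col A j b = col A j a := fun j hj => funext fun p => by
            simp only [col]
            refine le_antisymm (le_min (min_le_left _ _) ?_) (le_min (min_le_left _ _) ?_)
            · exact (le_min ((min_le_left _ _).trans (hj.trans hb)) (min_le_right _ _)).trans
                (hA.ultra a b p)
            · exact (le_min ((min_le_left _ _).trans (hj.trans (hA.symm a b ▸ hb)))
                (min_le_right _ _)).trans (hA.ultra b a p)
          simp only [incr, hj q le_rfl]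
          split_ifs
          · rfl
          · rw [hj _ (Fin.le_def.2 (by simp))]
        · have hcb : ¬ q ≤ c b := fun h => hb (by
            rw [congr_fun hcol b] at h; exact h.trans (min_le_right _ _))
          rw [if_neg hb, ge, if_neg hcb, mul_zero]
      rw [Finset.sum_congr rfl fun b _ => h1 b, ← Finset.sum_filter, Finset.sum_const, nsmul_eq_mul,
        show (Finset.univ.filter fun b => q ≤ A a b).card = cs A q a from rfl,
        mul_div_cancel₀ _ (Nat.cast_pos.2 (cs_pos hA q.is_le a)).ne', ge, if_pos hq, mul_one]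
    · have h0 : ∀ b, ¬ q ≤ c b := fun b h => hq (h.trans (ha b (Finset.mem_univ b)))
      simp [ge, h0]
  rw [Finset.sum_congr rfl fun q _ => e q, ← eq_sum_ge (fun j => g (col A j a)) (c a), ← hcol]

end Vale.Agent.P168.CascForm
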