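import Vale.Agent.P168.CascForm.Column

/-!
P168: arrays with one more replica, and their behaviour under relabelling.
-/

namespace Vale.Agent.P168.CascForm

open Vale.Agent.P157.Low

variable {r n : ℕ}

/-- The array with a new last replica. -/
def ext (A : LMat r n) (c : Fin n → Fin (r + 1)) : LMat r (n + 1) := fun a b =>
  Fin.lastCases (Fin.lastCases (Fin.last r) c b)
    (fun a' => Fin.lastCases (c a') (fun b' => A a' b') b) a

variable {A : LMat r n} {c : Fin n → Fin (r + 1)}

@[simp] lemma ext_cc (A : LMat r n) (c : Fin n → Fin (r + 1)) (a b : Fin n) :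
    ext A c a.castSucc b.castSucc = A a b := by simp [ext]

@[simp] lemma ext_lc (A : LMat r n) (c : Fin n → Fin (r + 1)) (b : Fin n) :
    ext A c (Fin.last n) b.castSucc = c b := by simp [ext]

@[simp] lemma ext_cl (A : LMat r n) (c : Fin n → Fin (r + 1)) (a : Fin n) :
    ext A c a.castSucc (Fin.last n) = c a := by simp [ext]

@[simp] lemma ext_ll (A : LMat r n) (c : Fin n → Fin (r + 1)) :
    ext A c (Fin.last n) (Fin.last n) = Fin.last r := by simp [ext]

lemma sub_ext (A : LMat r n) (c : Fin n → Fin (r + 1)) : sub (ext A c) Fin.castSucc = A := by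
  funext a b; simp [sub]

lemma good_ext (hA : Good A) (hc : IsCol A c) : Good (ext A c) := by
  refine ⟨fun a b => ?_, fun a => ?_, fun a b d => ?_⟩
  · cases a using Fin.lastCases <;> cases b using Fin.lastCases <;> simp [hA.symm]
  · cases a using Fin.lastCases <;> simp [hA.diag]
  · cases a using Fin.lastCases <;> cases b using Fin.lastCases <;> cases d using Fin.lastCases <;>
      simp only [ext_cc, ext_cl, ext_lc, ext_ll]
    · exact le_of_eq (min_self _)
    · exact min_le_right _ _
    · exact Fin.le_last _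
    · exact hc.down _ _
    · exact min_le_left _ _
    · exact hc.meet _ _
    · rw [hA.symm, min_comm]; exact hc.down _ _
    · exact hA.ultra _ _ _

lemma isCol_restrict {c' : Fin (n + 1) → Fin (r + 1)} (hc' : IsCol (ext A c) c') :
    IsCol A fun a => c' a.castSucc :=
  ⟨fun a b => by simpa using hc'.down a.castSucc b.castSucc,
    fun a b => by simpa using hc'.meet a.castSucc b.castSucc⟩

lemma good_castSucc {A' : LMat r (n + 1)} (hA : Good A') : Good (sub A' Fin.castSucc) :=
  ⟨fun _ _ => hA.symm _ _, fun _ => hA.diag _, fun _ _ _ => hA.ultra _ _ _⟩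

lemma isCol_last {A' : LMat r (n + 1)} (hA : Good A') :
    IsCol (sub A' Fin.castSucc) fun a => A' (Fin.last n) a.castSucc :=
  ⟨fun _ _ => hA.ultra _ _ _, fun a b => by
    show min (A' (Fin.last n) a.castSucc) (A' (Fin.last n) b.castSucc) ≤ A' a.castSucc b.castSucc
    rw [hA.symm (Fin.last n) a.castSucc]
    exact hA.ultra _ _ _⟩

lemma ext_eta {A' : LMat r (n + 1)} (hA : Good A') :
    ext (sub A' Fin.castSucc) (fun a => A' (Fin.last n) a.castSucc) = A' := by
  funext a b
  cases a using Fin.lastCases <;> cases b using Fin.lastCases <;>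
    simp [sub, hA.diag, hA.symm (Fin.last n)]

/-! ### Relabelling -/

lemma good_sub_map (hA : Good A) {k : ℕ} (e : Fin k → Fin n) : Good (sub A e) :=
  ⟨fun _ _ => hA.symm _ _, fun _ => hA.diag _, fun _ _ _ => hA.ultra _ _ _⟩

lemma cs_perm (A : LMat r n) (σ : Equiv.Perm (Fin n)) (q : ℕ) (a : Fin n) :
    cs (sub A σ) q a = cs A q (σ a) := by
  refine Finset.card_equiv σ fun p => ?_
  rw [Finset.mem_filter, Finset.mem_filter]
  simp [sub]

lemma gRatio_perm (m : Fin (r + 1) → ℝ) (A : LMat r n) (σ : Equiv.Perm (Fin n)) (q : ℕ) (a : Fin n) :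
    gRatio m (sub A σ) a q = gRatio m A (σ a) q := by
  simp only [gRatio, cs_perm]

/-- The average of the new column commutes with relabelling. -/
lemma colAv_perm (m : Fin (r + 1) → ℝ) (A : LMat r n) (σ : Equiv.Perm (Fin n))
    (F : (Fin n → Fin (r + 1)) → ℝ) :
    colAv m (sub A σ) F = colAv m A fun c => F (c ∘ σ) := by
  unfold colAv
  split_ifs with hn
  · rfl
  · congr 1
    refine Fintype.sum_equiv σ _ _ fun a => Finset.sum_congr rfl fun j _ => ?_
    rw [gRatio_perm, gRatio_perm]
    rfl

end Vale.Agent.P168.CascForm
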