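import Vale.Agent.P168.CascForm.Ext

/-!
P168: adding two replicas one after the other does not depend on their order.
-/

namespace Vale.Agent.P168.CascForm

open Vale.Agent.P157.Low

variable {r n : ℕ} {m : Fin (r + 1) → ℝ} {A : LMat r n}

/-- The average over two new replicas: their columns on the old ones and their meeting level. -/
noncomputable def twoAv (m : Fin (r + 1) → ℝ) (A : LMat r n)
    (G : (Fin n → Fin (r + 1)) → (Fin n → Fin (r + 1)) → Fin (r + 1) → ℝ) : ℝ :=
  colAv m A fun c => colAv m (ext A c) fun c' => G c (fun a => c' a.castSucc) (c' (Fin.last n))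

lemma twoAv_congr (hA : Good A)
    {G G' : (Fin n → Fin (r + 1)) → (Fin n → Fin (r + 1)) → Fin (r + 1) → ℝ}
    (h : ∀ c d h', IsCol A c → IsCol A d → (∀ a, min h' (c a) ≤ d a) → (∀ a, min h' (d a) ≤ c a) →
      (∀ a, min (c a) (d a) ≤ h') → G c d h' = G' c d h') :
    twoAv m A G = twoAv m A G' := by
  refine colAv_congr hA fun c hc => colAv_congr (good_ext hA hc) fun c' hc' =>
    h c _ _ hc (isCol_restrict hc') (fun a => ?_) (fun a => ?_) fun a => ?_
  · simpa using hc'.down (Fin.last n) a.castSucc
  · simpa using hc'.meet (Fin.last n) a.castSucc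
  · have := hc'.down a.castSucc (Fin.last n)
    rw [ext_cl, min_comm] at this
    exact this

lemma twoAv_sum {ι : Type} (s : Finset ι) (x : ι → ℝ)
    (G : ι → (Fin n → Fin (r + 1)) → (Fin n → Fin (r + 1)) → Fin (r + 1) → ℝ) :
    twoAv m A (fun c d h => ∑ i ∈ s, x i * G i c d h) = ∑ i ∈ s, x i * twoAv m A (G i) := by
  simp only [twoAv, colAv_sum, colAv_smul]

/-- Two prescribed balls are hit symmetrically. -/
lemma twoAv_pair (hn : n ≠ 0) (hA : Good A) (i i' : Fin (r + 1)) (a b : Fin n) :
    twoAv m A (fun c d _ => ge i (c a) * ge i' (d b)) =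
      (((cs A i a : ℝ) - m i) * ((cs A i' b : ℝ) - m i') / n +
        colAv m A (fun c => ge i (c a) * ge i' (c b))) / (n + 1) := by
  have e : ∀ c, IsCol A c → colAv m (ext A c) (fun c' => ge i (c a) * ge i' (c' b.castSucc)) =
      (1 / (n + 1 : ℝ)) * (((cs A i' b : ℝ) - m i') * ge i (c a) + ge i (c a) * ge i' (c b)) := by
    intro c hc
    have hcs : (cs (ext A c) i' b.castSucc : ℝ) = cs A i' b + ge i' (c b) := by
      simp only [cs, Finset.card_filter, ge]
      rw [Fin.sum_univ_castSucc]
      simp only [ext_cc, ext_cl, Nat.cast_add, Fin.val_fin_le]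
      split_ifs <;> simp
    rw [colAv_smul, colAv_ge (Nat.succ_ne_zero n) (good_ext hA hc), hcs]
    push_cast
    field_simp
    ring
  rw [twoAv, colAv_congr hA e, colAv_smul, colAv_add, colAv_smul, colAv_ge hn hA]
  field_simp

lemma twoAv_pair_symm (hn : n ≠ 0) (hA : Good A) (i i' : Fin (r + 1)) (a b : Fin n) :
    twoAv m A (fun c d _ => ge i (c a) * ge i' (d b)) =
      twoAv m A (fun c d _ => ge i' (c b) * ge i (d a)) := by
  rw [twoAv_pair hn hA, twoAv_pair hn hA,
    show (fun c : Fin n → Fin (r + 1) => ge i (c a) * ge i' (c b)) = fun c => ge i' (c b) * ge i (c a)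
      from funext fun c => mul_comm _ _]
  ring

lemma ge3_congr {i i' k x y z j j' l u v w : Fin (r + 1)}
    (h : (i ≤ x ∧ i' ≤ y ∧ k ≤ z) ↔ (j ≤ u ∧ j' ≤ v ∧ l ≤ w)) :
    ge i x * ge i' y * ge k z = ge j u * ge j' v * ge l w := by
  simp only [ge]
  split_ifs <;> simp <;> tauto

/-- Two prescribed balls and a meeting level are hit symmetrically. -/
lemma twoAv_tri (hn : n ≠ 0) (hA : Good A) (i i' k : Fin (r + 1)) (a b : Fin n) :
    twoAv m A (fun c d h => ge i (c a) * ge i' (d b) * ge k h) =
      twoAv m A (fun c d h => ge i' (c b) * ge i (d a) * ge k h) := by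
  suffices key : ∀ i i' (a b : Fin n), i ≤ i' →
      twoAv m A (fun c d h => ge i (c a) * ge i' (d b) * ge k h) =
        twoAv m A (fun c d h => ge i' (c b) * ge i (d a) * ge k h) by
    rcases le_total i i' with h | h
    exacts [key i i' a b h, (key i' i b a h).symm]
  intro i i' a b hii
  have hba : ∀ {q}, q ≤ A a b → q ≤ A b a := fun h => by rwa [hA.symm]
  by_cases h1 : k ≤ i ∧ k ≤ A a b
  · have drop : ∀ {p q : Fin (r + 1)} {x y : Fin n}, k ≤ p → k ≤ q → k ≤ A x y →
        twoAv m A (fun c d h => ge p (c x) * ge q (d y) * ge k h) =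
          twoAv m A (fun c d _ => ge p (c x) * ge q (d y)) := by
      intro p q x y hp hq hxy
      refine twoAv_congr hA fun c d h hc hd h₁ h₂ h₃ => ?_
      simp only [ge]
      split_ifs with u v w <;> simp
      refine w ((le_min (hp.trans u) ?_).trans (h₃ x))
      exact (le_min (hq.trans v) (by rwa [hA.symm])).trans (hd.down y x)
    rw [drop h1.1 (h1.1.trans hii) h1.2, drop (h1.1.trans hii) h1.1 (hba h1.2)]
    exact twoAv_pair_symm hn hA i i' a b
  by_cases h2 : A a b < i ∧ A a b < k
  · have zero : ∀ {p q : Fin (r + 1)} {x y : Fin n}, A x y < p → A x y < q → A x y < k →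
        twoAv m A (fun c d h => ge p (c x) * ge q (d y) * ge k h) = twoAv m A fun _ _ _ => 0 := by
      intro p q x y hp hq hk
      refine twoAv_congr hA fun c d h hc hd h₁ h₂ h₃ => ?_
      simp only [ge]
      split_ifs with u v w <;> simp
      have hd' : A x y < d x := (lt_min (hk.trans_le w) (hp.trans_le u)).trans_le (h₁ x)
      exact absurd (hd.meet x y) (not_le.2 (lt_min hd' (hq.trans_le v)))
    have hq : A a b < i' := h2.1.trans_le hii
    rw [zero h2.1 hq h2.2, zero (by rwa [hA.symm]) (by rw [hA.symm]; exact h2.1) (by rw [hA.symm]; exact h2.2)]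
  have hik : i < k ∧ i ≤ A a b := by
    rcases le_or_gt k i with hki | hik
    · have hg : A a b < k := not_le.1 fun h => h1 ⟨hki, h⟩
      exact absurd ⟨hg.trans_le hki, hg⟩ h2
    · exact ⟨hik, not_lt.1 fun h => h2 ⟨h, h.trans hik⟩⟩
  rcases le_or_gt k i' with hk | hk
  · have l : twoAv m A (fun c d h => ge i (c a) * ge i' (d b) * ge k h) =
        twoAv m A (fun c d _ => ge k (c b) * ge i' (d b)) := by
      refine twoAv_congr hA fun c d h hc hd h₁ h₂ h₃ => ?_
      simp only [ge]
      split_ifs with u v w x y <;> simp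
      all_goals first
        | exact (‹¬ k ≤ c b›) ((le_min (by assumption) (hk.trans (by assumption))).trans (h₂ b))
        | exact (‹¬ k ≤ h›) ((le_min (by assumption) (hk.trans (by assumption))).trans (h₃ b))
        | exact (‹¬ i ≤ c a›) ((le_min (hik.1.le.trans (by assumption)) (hba hik.2)).trans (hc.down b a))
    have l' : twoAv m A (fun c d h => ge i' (c b) * ge i (d a) * ge k h) =
        twoAv m A (fun c d _ => ge i' (c b) * ge k (d b)) := by
      refine twoAv_congr hA fun c d h hc hd h₁ h₂ h₃ => ?_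
      simp only [ge]
      split_ifs with u v w x y <;> simp
      all_goals first
        | exact (‹¬ k ≤ d b›) ((le_min (by assumption) (hk.trans (by assumption))).trans (h₁ b))
        | exact (‹¬ k ≤ h›) ((le_min (hk.trans (by assumption)) (by assumption)).trans (h₃ b))
        | exact (‹¬ i ≤ d a›) ((le_min (hik.1.le.trans (by assumption)) (hba hik.2)).trans (hd.down b a))
    rw [l, l']
    exact twoAv_pair_symm hn hA k i' b b
  · refine twoAv_congr hA fun c d h hc hd h₁ h₂ h₃ => ge3_congr ⟨?_, ?_⟩
    · rintro ⟨-, hdb, hh⟩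
      have hcb : i' ≤ c b := (le_min (hk.le.trans hh) hdb).trans (h₂ b)
      exact ⟨hcb, (le_min (hii.trans hdb) (hba hik.2)).trans (hd.down b a), hh⟩
    · rintro ⟨hcb, -, hh⟩
      have hdb : i' ≤ d b := (le_min (hk.le.trans hh) hcb).trans (h₁ b)
      exact ⟨(le_min (hii.trans hcb) (hba hik.2)).trans (hc.down b a), hdb, hh⟩

/-- The two new replicas may be exchanged. -/
theorem twoAv_symm (hA : Good A)
    (G : (Fin n → Fin (r + 1)) → (Fin n → Fin (r + 1)) → Fin (r + 1) → ℝ) :
    twoAv m A G = twoAv m A (fun c d h => G d c h) := by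
  rcases Nat.eq_zero_or_pos n with hn | hn
  · subst hn
    exact twoAv_congr hA fun c d h _ _ _ _ _ => by rw [Subsingleton.elim d c]
  set K : (Fin (r + 1) × (Fin n × Fin (r + 1))) × (Fin n × Fin (r + 1)) → ℝ := fun q =>
    coef A (fun c => coef A (fun d => incr (G c d) q.1.1) q.1.2) q.2
  have expand : ∀ c d h, IsCol A c → IsCol A d → G c d h =
      ∑ q, K q * (ge q.2.2 (c q.2.1) * ge q.1.2.2 (d q.1.2.1) * ge q.1.1 h) := by
    intro c d h hc hd
    rw [eq_sum_ge (G c d) h, Fintype.sum_prod_type, Fintype.sum_prod_type]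
    refine Finset.sum_congr rfl fun k _ => ?_
    rw [eq_sum_coef hn.ne' hA (fun d => incr (G c d) k) hd, Finset.sum_mul]
    refine Finset.sum_congr rfl fun p _ => ?_
    rw [eq_sum_coef hn.ne' hA (fun c => coef A (fun d => incr (G c d) k) p) hc, Finset.sum_mul,
      Finset.sum_mul]
    exact Finset.sum_congr rfl fun p' _ => by simp only [K]; ring
  rw [twoAv_congr hA (G' := fun c d h =>
      ∑ q, K q * (ge q.2.2 (c q.2.1) * ge q.1.2.2 (d q.1.2.1) * ge q.1.1 h))
      (fun c d h hc hd _ _ _ => expand c d h hc hd),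
    twoAv_congr hA (G := fun c d h => G d c h) (G' := fun c d h =>
      ∑ q, K q * (ge q.2.2 (d q.2.1) * ge q.1.2.2 (c q.1.2.1) * ge q.1.1 h))
      (fun c d h hc hd _ _ _ => expand d c h hd hc), twoAv_sum, twoAv_sum]
  refine Finset.sum_congr rfl fun q _ => ?_
  rw [twoAv_tri hn.ne' hA]
  congr 1
  exact twoAv_congr hA fun c d h _ _ _ _ _ => by ring

/-- The same for functions of the array with two new replicas. -/
theorem swap_two (hA : Good A) (f : LMat r (n + 2) → ℝ) :
    colAv m A (fun c => colAv m (ext A c) fun c' =>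
        f (sub (ext (ext A c) c') (Equiv.swap (Fin.last n).castSucc (Fin.last (n + 1))))) =
      colAv m A (fun c => colAv m (ext A c) fun c' => f (ext (ext A c) c')) := by
  have h := twoAv_symm (m := m) hA fun c d h => f (ext (ext A d) (Fin.snoc c h))
  have e1 : ∀ c (c' : Fin (n + 1) → Fin (r + 1)),
      sub (ext (ext A c) c') (Equiv.swap (Fin.last n).castSucc (Fin.last (n + 1))) =
        ext (ext A fun a => c' a.castSucc) (Fin.snoc c (c' (Fin.last n))) := by
    intro c c'
    set σ := Equiv.swap (Fin.last n).castSucc (Fin.last (n + 1)) with hσ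
    have s1 : ∀ a : Fin n, σ a.castSucc.castSucc = a.castSucc.castSucc := fun a =>
      Equiv.swap_apply_of_ne_of_ne (by simp [(Fin.castSucc_lt_last a).ne])
        (Fin.castSucc_lt_last _).ne
    have s2 : σ (Fin.last n).castSucc = Fin.last (n + 1) := Equiv.swap_apply_left _ _
    have s3 : σ (Fin.last (n + 1)) = (Fin.last n).castSucc := Equiv.swap_apply_right _ _
    funext a b
    simp only [sub]
    cases a using Fin.lastCases with
    | last => cases b using Fin.lastCases with
      | last => simp [s3]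
      | cast b => cases b using Fin.lastCases <;> simp [s1, s2, s3]
    | cast a => cases b using Fin.lastCases with
      | last => cases a using Fin.lastCases <;> simp [s1, s2, s3]
      | cast b => cases a using Fin.lastCases <;> cases b using Fin.lastCases <;> simp [s1, s2]
  have e2 : ∀ (c' : Fin (n + 1) → Fin (r + 1)),
      (Fin.snoc (fun a => c' a.castSucc) (c' (Fin.last n)) : Fin (n + 1) → Fin (r + 1)) = c' :=
    fun c' => Fin.snoc_init_self c'
  simp only [twoAv, e2] at h
  simp only [e1]
  exact h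

end Vale.Agent.P168.CascForm
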